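import Vale.Agent.P181.TRT.Defs

set_option autoImplicit false

/-!
# P181, TRT: (TR8) `gt` is at most the product over the rows (helper201)
-/

namespace Vale.Agent.P181.TRT.H201

open Finset Vale.Agent.P181.H463

theorem hockey (N n : ℕ) : ∑ k ∈ range (n + 1), (N + k).choose k = (N + 1 + n).choose n := by
  have h1 := Nat.sum_range_add_choose n N
  have h2 : ∑ k ∈ range (n + 1), (N + k).choose k = ∑ i ∈ range (n + 1), (i + N).choose N := by
    refine sum_congr rfl fun k _ => ?_
    rw [Nat.add_comm N k]
    exact Nat.choose_symm_add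
  rw [h2, h1]
  have h3 : N + 1 + n = n + (N + 1) := by omega
  have h4 : n + N + 1 = n + (N + 1) := by omega
  rw [h3, h4]
  exact Nat.choose_symm_add.symm

/-- (TR8) -/
theorem gtRow : GtRow := by
  intro m N
  induction N with
  | zero =>
    intro mu
    have h1 : ∏ i, (0 + mu i).choose (mu i) = 1 := by simp
    rw [h1, gt]
    split_ifs <;> simp
  | succ N ih =>
    intro mu
    rw [gt]
    calc ∑ nu ∈ strips mu, gt m N nu
        ≤ ∑ nu ∈ strips mu, ∏ i, (N + nu i).choose (nu i) := sum_le_sum fun nu _ => ih nu
      _ = ∏ i, ∑ k ∈ Icc (nxt mu i) (mu i), (N + k).choose k := by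
          rw [strips]
          exact (prod_univ_sum (fun i => Icc (nxt mu i) (mu i))
            (fun _ k => (N + k).choose k)).symm
      _ ≤ ∏ i, (N + 1 + mu i).choose (mu i) := by
          refine prod_le_prod' fun i _ => ?_
          rw [← hockey]
          refine sum_le_sum_of_subset fun k hk => ?_
          rw [mem_Icc] at hk
          rw [mem_range]
          omega

end Vale.Agent.P181.TRT.H201
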