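import Vale.Agent.P181.TRT.Defs

set_option autoImplicit false

/-!
# P181, TRT: (TR10) the sizes of the letters (helper201)
-/

namespace Vale.Agent.P181.TRT.H201

open Finset

theorem sum_flag (N r : ℕ) (h : r ≤ N) : ∑ i ∈ range N, (if N - r ≤ i then 1 else 0) = r := by
  rw [← card_filter]
  have h1 : (range N).filter (fun i => N - r ≤ i) = Ico (N - r) N := by
    ext i
    simp only [mem_filter, mem_range, mem_Ico]
    omega
  rw [h1, Nat.card_Ico]
  omega

/-- The position of a letter. -/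
def ps (κ y M : ℕ) : Fin κ × Fin y × Fin M ≃ Fin (κ * (y * M)) :=
  (Equiv.prodCongr (Equiv.refl _) finProdFinEquiv).trans finProdFinEquiv

theorem ps_val {κ y M : ℕ} (x : Fin κ × Fin y × Fin M) :
    (ps κ y M x : ℕ) = M * (y * x.1 + x.2.1) + x.2.2 := by
  have h1 : (ps κ y M x : ℕ) = (x.2.2 + M * x.2.1) + (y * M) * x.1 := rfl
  rw [h1]
  ring

theorem ps_div {κ y M : ℕ} (x : Fin κ × Fin y × Fin M) :
    (ps κ y M x : ℕ) / M = y * x.1 + x.2.1 := by
  have hM : 0 < M := lt_of_le_of_lt (Nat.zero_le _) x.2.2.2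
  rw [ps_val, Nat.mul_add_div hM, Nat.div_eq_of_lt x.2.2.2, add_zero]

/-- (TR10) -/
theorem letT : LetT := by
  intro κ y M R s w hκ hy hM hs hky hR hlo hhi
  obtain ⟨N, hN⟩ : ∃ N, N = κ * (y * M) := ⟨_, rfl⟩
  have hN' : κ * y * M = N := by rw [hN, mul_assoc]
  have hN0 : 0 < N := by rw [hN]; positivity
  rw [hN'] at hlo hhi
  obtain ⟨S, hS⟩ : ∃ S, S = ∑ i ∈ range N, i / M := ⟨_, rfl⟩
  obtain ⟨T, hT⟩ : ∃ T, T = ∑ r : Fin R, (s - (r : ℕ)) := ⟨_, rfl⟩
  have hTle : T ≤ R * s := by
    rw [hT]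
    calc ∑ r : Fin R, (s - (r : ℕ)) ≤ ∑ _r : Fin R, s := sum_le_sum fun r _ => Nat.sub_le _ _
      _ = R * s := by simp
  have hdiv : ∀ i, i < N → i / M < κ * y := by
    intro i hi
    rw [Nat.div_lt_iff_lt_mul hM, hN']
    exact hi
  have hSle : S ≤ N * (κ * y) := by
    rw [hS]
    calc ∑ i ∈ range N, i / M ≤ ∑ _i ∈ range N, κ * y :=
          sum_le_sum fun i hi => (hdiv i (mem_range.1 hi)).le
      _ = N * (κ * y) := by simp
  have hS16 : 16 * S ≤ N * s := by
    calc 16 * S ≤ 16 * (N * (κ * y)) := Nat.mul_le_mul_left _ hSle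
      _ = N * (16 * (κ * y)) := by ring
      _ ≤ N * s := Nat.mul_le_mul_left _ hky
  have hcomm : s * N = N * s := Nat.mul_comm _ _
  rw [hcomm] at hlo hhi
  have hTS : T + S ≤ w := by
    have : 32 * (R * s) ≤ 32 * w := by omega
    omega
  obtain ⟨W, hW⟩ : ∃ W, W = w - T - S := ⟨_, rfl⟩
  have hWw : W + S + T = w := by omega
  obtain ⟨v, hv⟩ : ∃ v, v = W / N := ⟨_, rfl⟩
  obtain ⟨q, hq⟩ : ∃ q, q = W % N := ⟨_, rfl⟩
  have hWe : N * v + q = W := by rw [hv, hq]; exact Nat.div_add_mod W N
  have hqN : q < N := by rw [hq]; exact Nat.mod_lt _ hN0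
  -- bounds of `v`
  have hv1 : 32 * v ≤ 25 * s := by
    by_contra h
    push Not at h
    have h1 : N * (25 * s + 1) ≤ N * (32 * v) := Nat.mul_le_mul_left _ h
    have h2 : N * (32 * v) = 32 * (N * v) := by ring
    have h3 : N * (25 * s + 1) = 25 * (N * s) + N := by ring
    omega
  have hv2 : 22 * s < 32 * (v + 1) := by
    by_contra h
    push Not at h
    have h1 : N * (32 * (v + 1)) ≤ N * (22 * s) := Nat.mul_le_mul_left _ h
    have h2 : N * (32 * (v + 1)) = 32 * (N * v) + 32 * N := by ring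
    have h3 : N * (22 * s) = 22 * (N * s) := by ring
    omega
  let pos : Fin κ × Fin y × Fin M → ℕ := fun x => (ps κ y M x : ℕ)
  have hposN : ∀ x, pos x < N := fun x => by
    rw [hN]
    exact (ps κ y M x).2
  let k : (Fin κ × Fin y × Fin M) ⊕ Fin R → ℕ :=
    Sum.elim (fun x => v + pos x / M + if N - q ≤ pos x then 1 else 0) (fun r => s - (r : ℕ))
  have kl : ∀ x, k (Sum.inl x) = v + pos x / M + if N - q ≤ pos x then 1 else 0 := fun x => rfl
  have kr : ∀ r : Fin R, k (Sum.inr r) = s - (r : ℕ) := fun r => rfl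
  have klhi : ∀ x, k (Sum.inl x) ≤ v + κ * y := by
    intro x
    have h1 := hdiv (pos x) (hposN x)
    rw [kl]
    split_ifs <;> omega
  have klR : ∀ x, k (Sum.inl x) + R ≤ s := by
    intro x
    have := klhi x
    omega
  have hsum : ∑ x : Fin κ × Fin y × Fin M, (v + pos x / M + if N - q ≤ pos x then 1 else 0) =
      W + S := by
    have h1 : ∑ x : Fin κ × Fin y × Fin M, (v + pos x / M + if N - q ≤ pos x then 1 else 0) =
        ∑ i : Fin (κ * (y * M)), (v + (i : ℕ) / M + if N - q ≤ (i : ℕ) then 1 else 0) :=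
      Equiv.sum_comp (ps κ y M)
        (fun i : Fin (κ * (y * M)) => v + (i : ℕ) / M + if N - q ≤ (i : ℕ) then 1 else 0)
    rw [h1, Fin.sum_univ_eq_sum_range
      (fun i : ℕ => v + i / M + if N - q ≤ i then 1 else 0) (κ * (y * M)), ← hN,
      sum_add_distrib, sum_add_distrib, sum_flag N q hqN.le, ← hS, sum_const, card_range,
      smul_eq_mul]
    omega
  refine ⟨k, ?_, ?_, ?_, ?_⟩
  · rw [Fintype.sum_sum_type]
    have h1 : ∑ x, k (Sum.inl x) = W + S := hsum
    have h2 : ∑ r, k (Sum.inr r) = T := hT.symm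
    rw [h1, h2]
    exact hWw
  · rintro (x | r)
    · have h1 := klR x
      have h2 : v ≤ k (Sum.inl x) :=
        (Nat.le_add_right v (pos x / M)).trans (Nat.le_add_right _ _)
      constructor <;> omega
    · rw [kr]
      have := r.2
      constructor <;> omega
  · rintro x (z | r) h
    · exfalso
      have h1 := klR z
      rw [kr] at h
      have := x.2
      omega
    · rw [kr, kr] at h
      have h1 := x.2
      have h2 := r.2
      congr 1
      apply Fin.ext
      omega
  · rintro x (z | r) h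
    · rw [kl, kl] at h
      have hd : pos z / M = pos x / M := by
        have hmon : ∀ a b : ℕ, a / M < b / M → a < b := fun a b hab => by
          by_contra hc
          push Not at hc
          exact absurd (Nat.div_le_div_right (c := M) hc) (by omega)
        rcases lt_trichotomy (pos z / M) (pos x / M) with h1 | h1 | h1
        · exfalso
          have h2 := hmon _ _ h1
          split_ifs at h <;> omega
        · exact h1
        · exfalso
          have h2 := hmon _ _ h1
          split_ifs at h <;> omega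
      have h3 : y * (z.1 : ℕ) + z.2.1 = y * (x.1 : ℕ) + x.2.1 := by
        have e1 : pos z / M = y * z.1 + z.2.1 := ps_div z
        have e2 : pos x / M = y * x.1 + x.2.1 := ps_div x
        rw [e1, e2] at hd
        exact hd
      have h4 : (z.1 : ℕ) = x.1 := by
        have e1 : (y * (z.1 : ℕ) + z.2.1) / y = z.1 := by
          rw [Nat.mul_add_div hy, Nat.div_eq_of_lt z.2.1.2, add_zero]
        have e2 : (y * (x.1 : ℕ) + x.2.1) / y = x.1 := by
          rw [Nat.mul_add_div hy, Nat.div_eq_of_lt x.2.1.2, add_zero]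
        rw [← e1, h3, e2]
      have h5 : (z.2.1 : ℕ) = x.2.1 := by
        rw [h4] at h3
        omega
      refine ⟨z.2.2, ?_⟩
      congr 1
      exact Prod.ext (Fin.ext h4) (Prod.ext (Fin.ext h5) rfl)
    · exfalso
      have h1 := klR x
      rw [kr] at h
      have := r.2
      omega

end Vale.Agent.P181.TRT.H201
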